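import Vale.Agent.P281.H723.KD.BK
import Vale.Agent.P281.H156.MFS.StepM

/-! P281, theorem MFS, block M-BK: the Bochner inequality with the additional term `tr_b α`. -/

open scoped Manifold ContDiff ComplexOrder Topology Matrix
open Filter Vale.Agent.P272.K Vale.Agent.P272.K.AMP Vale.Agent.P299
open Vale.Agent.P299.H954 Vale.Agent.P299.H882
open Vale.Agent.P272.K.INT (IsClosedForm)

set_option linter.all false

noncomputable section

namespace Vale.Agent.P281.H723.MFS

open Vale.Agent.P281.H723.KD Vale.Agent.P281.H713.KD Vale.Agent.P281.H156.MFS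
open Vale.Agent.P281.H167.GM (phiD)

section alg

variable {n M p : ℕ} {g χ Θ A W : Matrix (Fin n) (Fin n) ℂ} {b : Matrix (Fin p) (Fin n) ℂ}

/-- the trace over the span of the rows of `b` of a form which vanishes on the kernel of `b` -/
theorem trb_of_ker (h : (gm b g).det ≠ 0)
    (hW : ∀ v : Fin n → ℂ, (∀ j, ∑ k, b j k * v k = 0) → ∀ j, ∑ i, v i * W i j = 0) :
    trb b g W = (g⁻¹ * W).trace := by
  have h0 : b * ((g⁻¹)ᵀ - Mb b g) = 0 := b_mul_sub h
  have h1 : Wᵀ * ((g⁻¹)ᵀ - Mb b g) = 0 := by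
    ext i l
    have h2 := hW (fun k => ((g⁻¹)ᵀ - Mb b g) k l) (fun j => by
      have := congrFun (congrFun h0 j) l
      rwa [Matrix.mul_apply] at this) i
    rw [Matrix.mul_apply, Matrix.zero_apply, ← h2]
    refine Finset.sum_congr rfl fun k _ => ?_
    rw [Matrix.transpose_apply]
    ring
  rw [trb_eq, tr_eq]
  have h2 := congrArg Matrix.trace h1
  rw [Matrix.mul_sub, Matrix.trace_sub, Matrix.trace_zero, sub_eq_zero] at h2
  exact h2.symm

theorem B_ge_T (hg : g.PosDef) (h : (gm b g).det ≠ 0) (hA : (A - W).PosSemidef)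
    (hW : ∀ v : Fin n → ℂ, (∀ j, ∑ k, b j k * v k = 0) → ∀ j, ∑ i, v i * W i j = 0) :
    T g W ≤ B b g A := by
  have h1 : 0 ≤ B b g (A - W) := trb_nonneg hg hA
  rw [B_sub] at h1
  have h2 : B b g W = T g W := by rw [B, T, trb_of_ker h hW]
  linarith

end alg

section glob

variable {n M p : ℕ} {X : Type} [TopologicalSpace X] [ChartedSpace (Cm n) X]
  [IsManifold 𝓘(ℂ, Cm n) ω X]

/-- The field `good` of `IsDecPair`, with the kernel of the rows of `b`. -/
def GoodF (r : Fin M → X → ℝ) (χ : D.FormM n X) (p μ : ℕ) (K : Fin M → ℕ)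
    (N₀ N₁ : D.FormM n X → X → ℝ) (𝒦 : Chart n X → X → Cm n → Prop) : Prop :=
  ∃ 𝒪 : Set X, Dense 𝒪 ∧ ∀ a : ℝ, 0 < a → ∃ C : ℝ, ∀ x ∈ 𝒪, (∀ i, 0 < r i x) ∧
    ∃ (e : Chart n X) (b : Cm n → Matrix (Fin p) (Fin n) ℂ) (c₀ c₁ : Cm n → ℂ), At e x ∧
      (∀ j l, AnalyticAt ℂ (fun z => b z j l) (e x)) ∧
      AnalyticAt ℂ c₀ (e x) ∧ AnalyticAt ℂ c₁ (e x) ∧
      (∀ g, IsKahler g → ∀ᶠ z in 𝓝 (e x),
        N₀ g (e.symm z) = ‖c₀ z‖ ^ 2 * (∏ i, r i (e.symm z) ^ K i) * gramD (b z) (g e z) ^ μ ∧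
        N₁ g (e.symm z) = ‖c₁ z‖ ^ 2 * (∏ i, r i (e.symm z) ^ K i) * gramD (b z) (g e z) ^ μ) ∧
      (a ≤ N₀ χ x + N₁ χ x → ∀ i, K i ≠ 0 → ∃ l : Fin p → ℂ,
        qf (χ e (e x)) (fun k => xi (fun y => Real.log (r i y)) e (e x) k -
          ∑ j, l j * b (e x) j k) ≤ C) ∧
      ∀ v : Cm n, (∀ j, ∑ k, b (e x) j k * v k = 0) → 𝒦 e x v

end glob

/-- **Block M-BK**. -/
theorem bochOut {n M : ℕ} {X : Type} [TopologicalSpace X] [T2Space X] [CompactSpace X]
    [ConnectedSpace X] [ChartedSpace (Cm n) X] [IsManifold 𝓘(ℂ, Cm n) ω X] (hBdP : BdPart)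
    {χ α W : D.FormM n X} (hχ : IsKahler χ) {φ : Chart n X → Cm n → ℝ} (hφ : IsCanonicalMetric φ)
    {m : ℕ} {ρ : X → ℝ} (hρ : SmoothFn (n := n) ρ) (hρ0 : ∀ x, 0 ≤ ρ x)
    {Dv : Fin M → Set X} {r : Fin M → X → ℝ} {R : Fin M → D.FormM n X} (hBd : IsBd Dv r R)
    {dl : Fin M → ℝ} (hdl : ∀ i, 0 ≤ dl i) {C : ℝ} (hC : 0 ≤ C) (hα : IsClosedForm α)
    (hcurv : CurvMGe φ m ρ dl R α C χ) {p μ : ℕ} {K : Fin M → ℕ}
    (hK : ∀ i, (K i : ℝ) ≤ μ * dl i) {N₀ N₁ : D.FormM n X → X → ℝ}
    (hdec : IsDecPair Dv r χ p μ K N₀ N₁) {𝒦 : Chart n X → X → Cm n → Prop}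
    (hgoodF : GoodF r χ p μ K N₀ N₁ 𝒦)
    (hWs : ∀ e x, At e x → ∀ i j, ContDiffAt ℝ ∞ (fun z => W e z i j) (e x))
    (hWf : ∀ e e' x, At e x → At e' x → W e (e x) = (jacM e e' x).transpose * W e' (e' x) *
      (jacM e e' x).map (starRingEnd ℂ))
    (hWα : ∀ e x, At e x → (α e (e x) - W e (e x)).PosSemidef)
    (hW𝒦 : ∀ e x, At e x → ∀ v : Cm n, 𝒦 e x v → ∀ j, ∑ i, v i * W e (e x) i j = 0) :
    BochOut Dv r R χ φ m ρ dl α W C μ K N₀ N₁ := by
  obtain ⟨hrs, ⟨C₀, hC₀, hB⟩, -⟩ := hBdP n M X χ hχ Dv r R hBd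
  obtain ⟨𝒪, h𝒪, hgood⟩ := hgoodF
  have hr0 := r_nonneg hBd
  refine ⟨C₀, hC₀, fun a ha => ?_⟩
  obtain ⟨Ca, hCa⟩ := hgood a ha
  set Cb : ℝ := max Ca 0 with hCb
  have hCb0 : 0 ≤ Cb := le_max_right _ _
  have hCi : ∀ i, 0 ≤ μ * dl i * C₀ + K i * Cb := fun i =>
    add_nonneg (mul_nonneg (mul_nonneg (Nat.cast_nonneg _) (hdl i)) hC₀)
      (mul_nonneg (Nat.cast_nonneg _) hCb0)
  refine ⟨∑ i, (μ * dl i * C₀ + K i * Cb), Finset.sum_nonneg fun i _ => hCi i, ?_⟩
  intro β hβc hβ0 hβ1 δ ε hδ hε hε1 g c hg hvol N hN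
  have hgH := hg.toIsHermitian
  have hNs : SmoothFn (n := n) (N g) := by
    rcases hN with rfl | rfl
    · exact (hdec.smooth g hg).1
    · exact (hdec.smooth g hg).2
  have hN0 : ∀ x, 0 ≤ N g x := by
    intro x
    rcases hN with rfl | rfl
    · exact (hdec.nonneg g x hg).1
    · exact (hdec.nonneg g x hg).2
  set S : X → ℝ := fun x => N g x * ∏ i, (r i x + ε)⁻¹ ^ K i with hS
  have hrε : ∀ i x, 0 < r i x + ε := fun i x => by have := hr0 i x; linarith
  have hSs : SmoothFn (n := n) S := by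
    intro e x hx
    refine (hNs e x hx).mul (contDiffAt_prod fun i _ => ContDiffAt.pow (ContDiffAt.inv
      ((hrs i e x hx).add contDiffAt_const) ?_) _)
    exact (hrε i _).ne'
  have hS0 : ∀ x, 0 ≤ S x := fun x => mul_nonneg (hN0 x)
    (Finset.prod_nonneg fun i _ => pow_nonneg (inv_nonneg.2 (hrε i x).le) _)
  have hRc := hBd.closed
  have hcK : IsClosedForm (curvM φ m ρ δ dl R α) := isClosed_curvM hφ hρ hρ0 hδ hRc hα
  have hcD : ∀ i, IsClosedForm (dF (r i) (R i) ε) := fun i =>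
    isClosed_dF (hrs i) (hr0 i) hε (hRc i)
  have hcχ : IsClosedForm χ := isClosedForm_of_kahler hχ
  have hρδ : ∀ x, 0 < ρ x + δ := fun x => by have := hρ0 x; linarith
  have hcρ : Continuous ρ := INT.SmoothFn.continuous hρ
  have hcr : ∀ i, Continuous (r i) := fun i => INT.SmoothFn.continuous (hrs i)
  set τ : X → ℝ := fun x => μ * (trX g (curvM φ m ρ δ dl R α) x + C * (δ / (ρ x + δ)) *
      trX g χ x) + (∑ i, (μ * dl i * C₀ + K i * Cb)) * ∑ i, ε / (r i x + ε) * trX g χ x +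
      β x * ∑ i, if K i = 0 then 0 else K i * (trX g (dF (r i) (R i) ε) x + C₀ * trX g χ x)
    with hτ
  have hWc : Continuous (trX g W) := INT.SmoothFn.continuous (smoothFn_trX hgH hWf hWs)
  have hτc : Continuous τ := by
    have k1 := cont_trX hgH hcK
    have k2 := cont_trX hgH hcχ
    have k3 : Continuous fun x => δ / (ρ x + δ) :=
      continuous_const.div (hcρ.add continuous_const) fun x => (hρδ x).ne'
    have k4 : Continuous fun x => ∑ i, ε / (r i x + ε) * trX g χ x :=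
      continuous_finset_sum _ fun i _ => (continuous_const.div ((hcr i).add continuous_const)
        fun x => (hrε i x).ne').mul k2
    have k5 : Continuous fun x => ∑ i, if K i = 0 then (0 : ℝ) else
        K i * (trX g (dF (r i) (R i) ε) x + C₀ * trX g χ x) := by
      refine continuous_finset_sum _ fun i _ => ?_
      by_cases hi : K i = 0
      · simp only [hi, if_true]
        exact continuous_const
      · simp only [hi, if_false]
        exact continuous_const.mul ((cont_trX hgH (hcD i)).add (continuous_const.mul k2))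
    exact ((continuous_const.mul (k1.add ((continuous_const.mul k3).mul k2))).add
      (continuous_const.mul k4)).add (hβc.mul k5)
  have hτWc : Continuous fun x => τ x - μ * trX g W x := hτc.sub (continuous_const.mul hWc)
  show BochF g (fun x => τ x - μ * trX g W x) S
  have hSc : Continuous S := INT.SmoothFn.continuous hSs
  have hgc : Continuous (gradX g S S) := INT.SmoothFn.continuous (smoothFn_gradX hgH hSs hSs)
  have hlc : Continuous (lapX g S) := INT.SmoothFn.continuous (smoothFn_lapX hgH hSs)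
  have key : ∀ x ∈ 𝒪, gradX g S S x ≤ S x * lapX g S x + (τ x - μ * trX g W x) * S x ^ 2 := by
    intro x hxO
    rcases (hS0 x).eq_or_lt with h0 | h0
    · rw [gradX_zero hgH hSs hS0 h0.symm, ← h0]
      simp
    obtain ⟨hrp, e, b, c₀, c₁, hx, hb, hc₀, hc₁, hloc, hq, hker⟩ := hCa x hxO
    have hgP := hg.posDef e x hx
    have hχP := hχ.posDef e x hx
    -- the local form of `S`
    obtain ⟨cc, hcc, hlocS⟩ : ∃ cc : Cm n → ℂ, AnalyticAt ℂ cc (e x) ∧
        ∀ᶠ z in 𝓝 (e x), S (e.symm z) = ‖cc z‖ ^ 2 * (∏ i, r i (e.symm z) ^ K i) *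
          gramD (b z) (g e z) ^ μ * ∏ i, (r i (e.symm z) + ε)⁻¹ ^ K i := by
      rcases hN with rfl | rfl
      · refine ⟨c₀, hc₀, ?_⟩
        filter_upwards [hloc g hg] with z hz
        simp only [hS]
        rw [hz.1]
      · refine ⟨c₁, hc₁, ?_⟩
        filter_upwards [hloc g hg] with z hz
        simp only [hS]
        rw [hz.2]
    obtain ⟨hdet, hL⟩ := cHess_log_S hBd hrs hx hrp hε hg hcc hb hSs h0 hlocS
    -- reduction to `Δ log S ≥ - τ`
    suffices hmain : -(τ x - μ * trX g W x) ≤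
        ((g e (e x))⁻¹ * cHess (fun z => Real.log (S (e.symm z))) (e x)).trace.re by
      have hsx : S (e.symm (e x)) = S x := by rw [hx.left_inv]
      have h2 : ContDiffAt ℝ 2 (fun z => S (e.symm z)) (e x) := (hSs e x hx).of_le (by norm_cast)
      have e1 : cHess (fun z => Real.log (S (e.symm z))) (e x) =
          (((S x)⁻¹ : ℝ) : ℂ) • hess S e (e x) - (((S x ^ 2)⁻¹ : ℝ) : ℂ) • dd S S e (e x) := by
        ext k l
        rw [C2.cHess_log h2 (by rw [hsx]; exact h0) k l, hsx]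
        simp only [Matrix.sub_apply, Matrix.smul_apply, smul_eq_mul, hess, dd, Matrix.of_apply]
        push_cast
        rfl
      have e2 : ((g e (e x))⁻¹ * cHess (fun z => Real.log (S (e.symm z))) (e x)).trace.re =
          (S x)⁻¹ * lapX g S x - (S x ^ 2)⁻¹ * gradX g S S x := by
        rw [e1, lapX_eq hgH hSs hx, gradX_eq hgH hSs hSs hx, Matrix.mul_sub, Matrix.mul_smul,
          Matrix.mul_smul, Matrix.trace_sub, Matrix.trace_smul, Matrix.trace_smul, Complex.sub_re,
          smul_eq_mul, smul_eq_mul, Complex.re_ofReal_mul, Complex.re_ofReal_mul]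
        rfl
      rw [e2] at hmain
      have e3 := mul_le_mul_of_nonneg_left hmain (by positivity : (0 : ℝ) ≤ S x ^ 2)
      have e4 : S x ^ 2 * ((S x)⁻¹ * lapX g S x - (S x ^ 2)⁻¹ * gradX g S S x) =
          S x * lapX g S x - gradX g S S x := by
        field_simp
      rw [e4] at e3
      linarith
    -- values at `x` in the chart `e`
    have t1 : trX g χ x = T (g e (e x)) (χ e (e x)) := trX_eq hgH hcχ.form hx
    have t2 : trX g (curvM φ m ρ δ dl R α) x = T (g e (e x)) (curvM φ m ρ δ dl R α e (e x)) :=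
      trX_eq hgH hcK.form hx
    have t4 : trX g W x = T (g e (e x)) (W e (e x)) := trX_eq hgH hWf hx
    have t3 : ∀ i, trX g (dF (r i) (R i) ε) x = T (g e (e x)) (dF (r i) (R i) ε e (e x)) :=
      fun i => trX_eq hgH (hcD i).form hx
    have hX0 : 0 ≤ T (g e (e x)) (χ e (e x)) := T_nonneg hgP hχP.posSemidef
    have hf0 : ∀ i, 0 ≤ ε / (r i x + ε) := fun i => div_nonneg hε.le (hrε i x).le
    have hf1 : ∀ i, ε / (r i x + ε) ≤ 1 := fun i => by
      rw [div_le_one (hrε i x)]
      linarith [hr0 i x]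
    have hCle : ∑ i, (μ * dl i * C₀ + K i * Cb) * (ε / (r i x + ε) * T (g e (e x)) (χ e (e x))) ≤
        (∑ i, (μ * dl i * C₀ + K i * Cb)) * ∑ i, ε / (r i x + ε) * trX g χ x := by
      rw [t1, Finset.sum_mul]
      refine Finset.sum_le_sum fun i _ => mul_le_mul_of_nonneg_left ?_ (hCi i)
      exact Finset.single_le_sum (f := fun i => ε / (r i x + ε) * T (g e (e x)) (χ e (e x)))
        (fun j _ => mul_nonneg (hf0 j) hX0) (Finset.mem_univ i)
    refine le_trans ?_ hL
    by_cases hμ : μ = 0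
    · have hK0 : ∀ i, K i = 0 := by
        intro i
        have := hK i
        rw [hμ] at this
        simp only [Nat.cast_zero, zero_mul] at this
        exact_mod_cast le_antisymm this (Nat.cast_nonneg _)
      have z1 : (μ : ℝ) * (trb (b (e x)) (g e (e x)) (D.ric g e (e x))).re -
          ∑ i, K i * trE g (dF (r i) (R i) ε) e (e x) = 0 := by
        rw [hμ]
        simp [hK0]
      rw [z1, hτ]
      have z2 : 0 ≤ (∑ i, (μ * dl i * C₀ + K i * Cb)) * ∑ i, ε / (r i x + ε) * trX g χ x := by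
        refine mul_nonneg (Finset.sum_nonneg fun i _ => hCi i) (Finset.sum_nonneg fun i _ => ?_)
        rw [t1]
        exact mul_nonneg (hf0 i) hX0
      have z3 : ∑ i, (if K i = 0 then (0 : ℝ) else
          K i * (trX g (dF (r i) (R i) ε) x + C₀ * trX g χ x)) = 0 := by
        refine Finset.sum_eq_zero fun i _ => ?_
        rw [if_pos (hK0 i)]
      simp only [z3, mul_zero, add_zero]
      rw [hμ] at z2 ⊢
      simp only [Nat.cast_zero, zero_mul, zero_add] at z2 ⊢
      linarith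
    · have hdet' := hdet hμ
      -- the Ricci form
      have hric : D.ric g e (e x) = -curvM φ m ρ δ dl R α e (e x) +
          ∑ i, ((dl i : ℝ) : ℂ) • dF (r i) (R i) ε e (e x) + α e (e x) := by
        have e1 : (fun z => Real.log (g e z).det.re) =ᶠ[𝓝 (e x)]
            fun z => (phiD φ m ρ δ e z - ∑ i, dl i * Real.log (r i (e.symm z) + ε)) + c := by
          filter_upwards [eventually_at hx] with z hz
          have := hvol e _ hz.1
          rw [hz.2] at this
          exact this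
        have s1 : ContDiffAt ℝ 2 (phiD φ m ρ δ e) (e x) :=
          ((Vale.Agent.P281.H167.GM.isCanonical_phiD (m := m) hφ hρ hρ0 hδ).smooth e x hx).of_le
            (by norm_cast)
        have s2 : ∀ i, ContDiffAt ℝ 2 (fun z => Real.log (r i (e.symm z) + ε)) (e x) := fun i =>
          (((hrs i e x hx).of_le (by norm_cast)).add contDiffAt_const).log (hrε i _).ne'
        have s3 : ∀ i ∈ (Finset.univ : Finset (Fin M)),
            ContDiffAt ℝ 2 (fun z => dl i * Real.log (r i (e.symm z) + ε)) (e x) := fun i _ =>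
          contDiffAt_const.mul (s2 i)
        have s4 : ContDiffAt ℝ 2 (fun z => ∑ i, dl i * Real.log (r i (e.symm z) + ε)) (e x) :=
          ContDiffAt.sum s3
        show -cHess (fun z => Real.log (g e z).det.re) (e x) = _
        rw [C2.cHess_congr e1, C2.cHess_add (s1.sub s4) contDiffAt_const, C2.cHess_const, add_zero,
          C2.cHess_sub s1 s4, cHess_sum _ s3]
        simp only [fun i => C2.cHess_const_mul (dl i) (s2 i), curvM, curvK, dF, smul_add,
          Finset.sum_add_distrib]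
        abel
      have hpi := point_ineq (μ := μ) (f := fun i => ε / (r i x + ε)) (β := β x)
        (t := C * (δ / (ρ x + δ))) (C₀ := C₀) (Ca := Cb) (dl := dl) (K := K)
        (Θ := curvM φ m ρ δ dl R α e (e x)) (Dm := fun i => dF (r i) (R i) ε e (e x))
        hgP hχP hdet' hK hC₀ hCb0 hf0 hf1
        (mul_nonneg hC (div_nonneg hδ.le (hρδ x).le)) (hβ0 x) (hcurv δ hδ e x hx)
        (fun i => ((hB i e x hx).2.2 ε hε hε1).1)
        (by
          by_cases haa : a ≤ N₀ χ x + N₁ χ x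
          · right
            intro i hi
            obtain ⟨l, hl⟩ := hq haa i hi
            exact ⟨xi (fun y => Real.log (r i y)) e (e x), l,
              ((hB i e x hx).2.2 ε hε hε1).2.2 (hrp i), hl.trans (le_max_left _ _)⟩
          · left
            exact hβ1 x (not_le.1 haa))
      have hBW : T (g e (e x)) (W e (e x)) ≤ B (b (e x)) (g e (e x)) (α e (e x)) :=
        B_ge_T hgP hdet' (hWα e x hx) fun v hv => hW𝒦 e x hx v (hker v hv)
      rw [hric]
      have hsum : (μ : ℝ) * (trb (b (e x)) (g e (e x)) (-curvM φ m ρ δ dl R α e (e x) +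
          ∑ i, ((dl i : ℝ) : ℂ) • dF (r i) (R i) ε e (e x) + α e (e x))).re =
          μ * B (b (e x)) (g e (e x)) (-curvM φ m ρ δ dl R α e (e x) +
            ∑ i, ((dl i : ℝ) : ℂ) • dF (r i) (R i) ε e (e x)) +
          μ * B (b (e x)) (g e (e x)) (α e (e x)) := by
        have := B_add (b := b (e x)) (g := g e (e x)) (-curvM φ m ρ δ dl R α e (e x) +
          ∑ i, ((dl i : ℝ) : ℂ) • dF (r i) (R i) ε e (e x)) (α e (e x))
        rw [show (trb (b (e x)) (g e (e x)) (-curvM φ m ρ δ dl R α e (e x) +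
          ∑ i, ((dl i : ℝ) : ℂ) • dF (r i) (R i) ε e (e x) + α e (e x))).re =
          B (b (e x)) (g e (e x)) (-curvM φ m ρ δ dl R α e (e x) +
          ∑ i, ((dl i : ℝ) : ℂ) • dF (r i) (R i) ε e (e x) + α e (e x)) from rfl, this, mul_add]
      have hμW : (μ : ℝ) * T (g e (e x)) (W e (e x)) ≤
          μ * B (b (e x)) (g e (e x)) (α e (e x)) :=
        mul_le_mul_of_nonneg_left hBW (Nat.cast_nonneg _)
      rw [hsum]
      have hpi' := hpi
      simp only [hτ, t1, t2, t3, t4] at hCle hpi' ⊢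
      have e9 : ∑ i, (K i : ℝ) * trE g (dF (r i) (R i) ε) e (e x) =
          ∑ i, (K i : ℝ) * T (g e (e x)) (dF (r i) (R i) ε e (e x)) := rfl
      rw [e9]
      linarith
  intro x
  have hx : x ∈ closure 𝒪 := h𝒪 x
  have hcl : IsClosed {x | gradX g S S x ≤ S x * lapX g S x + (τ x - μ * trX g W x) * S x ^ 2} :=
    isClosed_le hgc ((hSc.mul hlc).add (hτWc.mul (hSc.pow 2)))
  exact closure_minimal (fun y hy => key y hy) hcl hx

end Vale.Agent.P281.H723.MFS
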